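import Mathlib.Analysis.Calculus.ImplicitContDiff
import Mathlib.Analysis.SpecialFunctions.SmoothTransition
import Mathlib.MeasureTheory.Integral.IntervalIntegral.FundThmCalculus

/-!
# P253Z, block RB: a regularised maximum, defined by an implicit equation
-/

open scoped ContDiff Topology
open Set Filter Real

noncomputable section

namespace Vale.Agent.P253Z.RB

/-- a smooth convex function which vanishes exactly on `(-∞, 0]` -/
def G (t : ℝ) : ℝ := ∫ s in (0 : ℝ)..t, smoothTransition s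

theorem G_deriv (t : ℝ) : HasDerivAt G (smoothTransition t) t :=
  (smoothTransition.continuous.integral_hasStrictDerivAt 0 t).hasDerivAt

theorem G_sm : ContDiff ℝ ∞ G := by
  have : deriv G = smoothTransition := funext fun t => (G_deriv t).deriv
  rw [contDiff_infty_iff_deriv, this]
  exact ⟨fun t => (G_deriv t).differentiableAt, smoothTransition.contDiff⟩

theorem G_zero {t : ℝ} (h : t ≤ 0) : G t = 0 := by
  refine (intervalIntegral.integral_congr (g := fun _ => 0) fun s hs => ?_).trans (by simp)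
  rw [uIcc_of_ge h] at hs
  exact smoothTransition.zero_of_nonpos hs.2

theorem G_tan (a b : ℝ) : G a + smoothTransition a * (b - a) ≤ G b := by
  have hi := fun x y : ℝ => smoothTransition.continuous.intervalIntegrable
    (μ := MeasureTheory.volume) x y
  have hc := fun x y : ℝ => (continuous_const (y := smoothTransition a)).intervalIntegrable
    (μ := MeasureTheory.volume) x y
  rcases le_total a b with h | h
  · have h1 := intervalIntegral.integral_mono_on h (hc a b) (hi a b)
      fun s hs => smoothTransition.monotone hs.1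
    have h2 := intervalIntegral.integral_add_adjacent_intervals (hi 0 a) (hi a b)
    rw [intervalIntegral.integral_const, smul_eq_mul] at h1
    unfold G
    linarith
  · have h1 := intervalIntegral.integral_mono_on h (hi b a) (hc b a)
      fun s hs => smoothTransition.monotone hs.2
    have h2 := intervalIntegral.integral_add_adjacent_intervals (hi 0 b) (hi b a)
    rw [intervalIntegral.integral_const, smul_eq_mul] at h1
    unfold G
    linarith

theorem G_mono {a b : ℝ} (h : a ≤ b) : G a ≤ G b := by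
  have := mul_nonneg (smoothTransition.nonneg a) (sub_nonneg.2 h)
  linarith [G_tan a b]

theorem G_nonneg (a : ℝ) : 0 ≤ G a :=
  (G_zero (min_le_right a 0)).ge.trans (G_mono (min_le_left _ _))

theorem G_one : 0 < G 1 := by
  have := smoothTransition.pos_of_pos (show (0 : ℝ) < 1 / 2 by norm_num)
  linarith [G_tan (1 / 2) 1, G_nonneg (1 / 2)]

variable {ι : Type*} {s : Finset ι} {δ : ι → ℝ}

/-- the left hand side of the equation -/
def Ph (s : Finset ι) (δ y : ι → ℝ) (t : ℝ) : ℝ := ∑ j ∈ s, G ((y j - t) / δ j)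

theorem slope_pos (hδ : ∀ j, 0 < δ j) {y : ι → ℝ} {t : ℝ} (h : 0 < Ph s δ y t) :
    0 < ∑ j ∈ s, smoothTransition ((y j - t) / δ j) / δ j := by
  obtain ⟨j, hj, h1⟩ := Finset.exists_ne_zero_of_sum_ne_zero h.ne'
  exact Finset.sum_pos' (fun i _ => div_nonneg (smoothTransition.nonneg _) (hδ i).le)
    ⟨j, hj, div_pos (smoothTransition.pos_of_pos (not_le.1 fun h2 => h1 (G_zero h2))) (hδ j)⟩

/-- the solution is a convex nondecreasing function of `y` which commutes with translations -/
theorem tangent (hδ : ∀ j, 0 < δ j) {y : ι → ℝ} {t : ℝ} (h : 0 < Ph s δ y t) :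
    ∃ l : ι → ℝ, (∀ j, 0 ≤ l j) ∧ ∑ j ∈ s, l j = 1 ∧ ∀ y' t', Ph s δ y' t' = Ph s δ y t →
      t + ∑ j ∈ s, l j * (y' j - y j) ≤ t' := by
  have hS := slope_pos hδ h
  set m : ι → ℝ := fun j => smoothTransition ((y j - t) / δ j) / δ j with hm
  set S := ∑ j ∈ s, m j with hS'
  refine ⟨fun j => m j / S, fun j => div_nonneg (div_nonneg (smoothTransition.nonneg _)
    (hδ j).le) hS.le, by rw [← Finset.sum_div, div_self hS.ne'], fun y' t' h' => ?_⟩
  have h1 : ∑ j ∈ s, (G ((y j - t) / δ j) + (m j * (y' j - y j) - m j * (t' - t))) ≤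
      Ph s δ y' t' := Finset.sum_le_sum fun j _ => by
    refine le_of_eq_of_le ?_ (G_tan ((y j - t) / δ j) ((y' j - t') / δ j))
    simp only [hm]
    ring
  rw [Finset.sum_add_distrib, Finset.sum_sub_distrib, ← Finset.sum_mul, h'] at h1
  have h2 : ∑ j ∈ s, m j / S * (y' j - y j) = (∑ j ∈ s, m j * (y' j - y j)) / S := by
    rw [Finset.sum_div]
    exact Finset.sum_congr rfl fun j _ => by ring
  have h3 : (∑ j ∈ s, m j * (y' j - y j)) / S ≤ t' - t := by
    rw [div_le_iff₀ hS]
    unfold Ph at h1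
    linarith
  linarith

theorem unique (hδ : ∀ j, 0 < δ j) {y : ι → ℝ} {t t' : ℝ} (h : 0 < Ph s δ y t)
    (h' : Ph s δ y t' = Ph s δ y t) : t' = t := by
  obtain ⟨l, -, -, h1⟩ := tangent hδ h
  obtain ⟨l', -, -, h2⟩ := tangent hδ (h' ▸ h : 0 < Ph s δ y t')
  have h3 := h1 y t' h'
  have h4 := h2 y t h'.symm
  simp only [sub_self, mul_zero, Finset.sum_const_zero, add_zero] at h3 h4
  exact le_antisymm h4 h3

theorem exists_sol (hδ : ∀ j, 0 < δ j) {y : ι → ℝ} {a : ℝ} (h1 : ∀ j ∈ s, y j ≤ a + 1)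
    (h2 : ∃ j ∈ s, a + δ j ≤ y j) : ∃ t ∈ Icc a (a + 1), Ph s δ y t = G 1 := by
  have hc : Continuous (Ph s δ y) :=
    continuous_finsetSum _ fun j _ => G_sm.continuous.comp (by fun_prop)
  refine intermediate_value_Icc' (by linarith) hc.continuousOn ⟨?_, ?_⟩
  · rw [show Ph s δ y (a + 1) = 0 from Finset.sum_eq_zero fun j hj =>
      G_zero (div_nonpos_of_nonpos_of_nonneg (by linarith [h1 j hj]) (hδ j).le)]
    exact G_one.le
  · obtain ⟨j, hj, h3⟩ := h2
    refine le_trans (G_mono ?_) (Finset.single_le_sum (f := fun j => G ((y j - a) / δ j))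
      (fun i _ => G_nonneg _) hj)
    rw [le_div_iff₀ (hδ j)]
    linarith

/-- the solution is smooth -/
theorem smooth_sol {E : Type*} [NormedAddCommGroup E] [NormedSpace ℝ E] [CompleteSpace E]
    (hδ : ∀ j, 0 < δ j) {v : ι → E → ℝ} {z₀ : E} (hv : ∀ j ∈ s, ContDiffAt ℝ ∞ (v j) z₀)
    {t : E → ℝ} {κ : ℝ} (hκ : 0 < κ) (ht : ∀ᶠ z in 𝓝 z₀, Ph s δ (fun j => v j z) (t z) = κ) :
    ContDiffAt ℝ ∞ t z₀ := by
  set f : E × ℝ → ℝ := fun p => Ph s δ (fun j => v j p.1) p.2 with hf
  have h0 : f (z₀, t z₀) = κ := ht.self_of_nhds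
  have cdf : ContDiffAt ℝ ∞ f (z₀, t z₀) := ContDiffAt.sum fun j hj =>
    G_sm.contDiffAt.comp _ ((((hv j hj).comp (z₀, t z₀) contDiffAt_fst).sub
      contDiffAt_snd).div_const _)
  have hS := slope_pos (s := s) hδ (y := fun j => v j z₀) (t := t z₀) (hκ.trans_eq h0.symm)
  set S := ∑ j ∈ s, smoothTransition ((v j z₀ - t z₀) / δ j) / δ j with hS'
  have d1 : HasDerivAt (fun r => f (z₀, r)) (-S) (t z₀) := by
    rw [hS', ← Finset.sum_neg_distrib]
    refine HasDerivAt.fun_sum fun j _ => ?_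
    have := (G_deriv ((v j z₀ - t z₀) / δ j)).comp (t z₀)
      (((hasDerivAt_id (t z₀)).const_sub (v j z₀)).div_const (δ j))
    exact this.congr_deriv (by ring)
  have d2 : HasFDerivAt (fun r => f (z₀, r))
      (fderiv ℝ f (z₀, t z₀) ∘L ContinuousLinearMap.inr ℝ E ℝ) (t z₀) :=
    (cdf.differentiableAt (by simp)).hasFDerivAt.comp (t z₀) (hasFDerivAt_prodMk_right z₀ (t z₀))
  have inv : (fderiv ℝ f (z₀, t z₀) ∘L ContinuousLinearMap.inr ℝ E ℝ).IsInvertible := by
    refine ⟨ContinuousLinearEquiv.unitsEquivAut ℝ (Units.mk0 (-S) (neg_ne_zero.2 hS.ne')), ?_⟩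
    rw [d2.unique d1.hasFDerivAt]
    ext
    simp
  refine (cdf.contDiffAt_implicitFunction (by simp) inv).congr_of_eventuallyEq ?_
  filter_upwards [ht, cdf.eventually_apply_implicitFunction (by simp) inv] with z h1 h2
  refine (unique hδ (y := fun j => v j z) (hκ.trans_eq h1.symm) ?_).symm
  rw [h1, ← h0]
  exact h2

end Vale.Agent.P253Z.RB
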