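import Vale.Agent.P253Z.Spec
import Vale.Agent.P284Z.F0.Reg
import Vale.Agent.P284Z.F0.Levi

/-!
# P253Z, block RB: the Levi form of smooth functions on `ℂⁿ`
-/

open scoped ContDiff Topology
open Set Metric Filter Asymptotics Complex Vale.Agent.P253.Mfd
open Vale.Agent.P272.K (Cm)
open Vale.Agent.P253.R2.H451 (levi2)
open Vale.Agent.P253.R2.H618 (four_taylor)

noncomputable section

namespace Vale.Agent.P253Z.RB

variable {n : ℕ} {f g : Cm n → ℝ} {z : Cm n}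

theorem fderiv2_lin (hf : ContDiffAt ℝ 2 f z) (hg : ContDiffAt ℝ 2 g z) (a b : ℝ) :
    fderiv ℝ (fderiv ℝ fun y => f y + (a * g y + b)) z =
      fderiv ℝ (fderiv ℝ f) z + a • fderiv ℝ (fderiv ℝ g) z := by
  have h1 : fderiv ℝ (fun y => f y + (a * g y + b)) =ᶠ[𝓝 z]
      fun y => fderiv ℝ f y + a • fderiv ℝ g y := by
    filter_upwards [hf.eventually (by simp), hg.eventually (by simp)] with y h2 h3
    exact ((h2.differentiableAt two_ne_zero).hasFDerivAt.add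
      (((h3.differentiableAt two_ne_zero).hasFDerivAt.const_mul a).add_const b)).fderiv
  rw [h1.fderiv_eq]
  exact ((P284Z.diff_fderiv hf).hasFDerivAt.add
    ((P284Z.diff_fderiv hg).hasFDerivAt.const_smul a)).fderiv

theorem levi2_lin (hf : ContDiffAt ℝ 2 f z) (hg : ContDiffAt ℝ 2 g z) (a b : ℝ) (v : Cm n) :
    levi2 (fun y => f y + (a * g y + b)) z v = levi2 f z v + a * levi2 g z v := by
  unfold levi2
  rw [fderiv2_lin hf hg]
  simp only [add_apply, smul_apply, smul_eq_mul]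
  ring

theorem abs_levi2_le (f : Cm n → ℝ) (z v : Cm n) :
    |levi2 f z v| ≤ 2 * ‖fderiv ℝ (fderiv ℝ f) z‖ * ‖v‖ ^ 2 := by
  have h1 := (fderiv ℝ (fderiv ℝ f) z).le_opNorm₂ v v
  have h2 := (fderiv ℝ (fderiv ℝ f) z).le_opNorm₂ (I • v) (I • v)
  rw [norm_smul, norm_I, one_mul] at h2
  refine (abs_add_le _ _).trans ?_
  rw [Real.norm_eq_abs] at h1 h2
  nlinarith

/-- the Levi form of a quadratic form -/
theorem levi2_quad (B : Cm n →L[ℝ] Cm n →L[ℝ] ℝ) (hB : ∀ v w, B v w = B w v)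
    (hI : ∀ v, B (I • v) (I • v) = B v v) (z₀ z v : Cm n) :
    levi2 (fun y => B (y - z₀) (y - z₀)) z v = 4 * B v v := by
  have h1 : fderiv ℝ (fun y => B (y - z₀) (y - z₀)) = fun y => (2 : ℝ) • B (y - z₀) := by
    funext y
    have a := (hasFDerivAt_id (𝕜 := ℝ) y).sub_const z₀
    refine (((B.hasFDerivAt.comp y a).clm_apply a).congr_fderiv ?_).fderiv
    ext w
    simp [hB w, two_mul]
  have h2 : HasFDerivAt (fun y => (2 : ℝ) • B (y - z₀)) ((2 : ℝ) • B) z :=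
    ((B.hasFDerivAt.comp z ((hasFDerivAt_id (𝕜 := ℝ) z).sub_const z₀)).const_smul
      (2 : ℝ)).congr_fderiv (by ext; simp)
  unfold levi2
  rw [h1, h2.fderiv]
  simp only [smul_apply, smul_eq_mul, hI]
  ring

theorem four_at (hf : ContDiffAt ℝ 2 f z) (Y : Cm n) {ξ : ℝ → Fin 4 → Cm n} (hξ : IsSmall ξ) :
    (fun r : ℝ => ∑ k : Fin 4, f (z + (r • (I ^ (k : ℕ) • Y) + ξ r k)) - 4 * f z
      - r ^ 2 * levi2 f z Y) =o[𝓝[>] (0 : ℝ)] fun r => r ^ 2 := by
  obtain ⟨V, hV, hVo, hz⟩ := _root_.eventually_nhds_iff.1 (hf.eventually (by simp))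
  exact four_taylor hVo (fun y hy => (hV y hy).contDiffWithinAt) hz Y hξ

theorem four_comp {τ : Cm n → Cm n} (hτ : AnalyticAt ℂ τ z) (hf : ContDiffAt ℝ 2 f (τ z))
    (Y : Cm n) :
    (fun r : ℝ => ∑ k : Fin 4, f (τ (z + r • (I ^ (k : ℕ) • Y))) - 4 * f (τ z)
      - r ^ 2 * levi2 f (τ z) (fderiv ℝ τ z Y)) =o[𝓝[>] (0 : ℝ)] fun r => r ^ 2 := by
  obtain ⟨V, hV, hVo, hz⟩ := _root_.eventually_nhds_iff.1 hτ.eventually_analyticAt
  have h1 := isSmall_map hVo (fun y hy => (hV y hy).differentiableAt.differentiableWithinAt) hz Y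
    isSmall_zero
  have h2 := four_at hf (fderiv ℝ τ z Y) h1
  have e : ∀ a b c : Cm n, a + (b + (c - a - b)) = c := fun a b c => by abel
  simpa only [add_zero, e] using h2

/-- a function which lies above a combination of pull-backs and touches it -/
theorem touch {ι : Type*} (s : Finset ι) {l : ι → ℝ} {p : ι → Cm n → ℝ} {τ : ι → Cm n → Cm n}
    (hτ : ∀ j ∈ s, AnalyticAt ℂ (τ j) z) (hp : ∀ j ∈ s, ContDiffAt ℝ 2 (p j) (τ j z))
    (hf : ContDiffAt ℝ 2 f z)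
    (h : ∀ᶠ y in 𝓝 z, f z + ∑ j ∈ s, l j * (p j (τ j y) - p j (τ j z)) ≤ f y) (Y : Cm n) :
    ∑ j ∈ s, l j * levi2 (p j) (τ j z) (fderiv ℝ (τ j) z Y) ≤ levi2 f z Y := by
  have h1 := IsLittleO.sum fun j hj => (four_comp (hτ j hj) (hp j hj) Y).const_mul_left (l j)
  have h2 := four_comp (τ := id) analyticAt_id hf Y
  rw [fderiv_id] at h2
  have h3 : ∀ᶠ r : ℝ in 𝓝[>] 0, ∀ k : Fin 4, f z + ∑ j ∈ s, l j *
      (p j (τ j (z + r • (I ^ (k : ℕ) • Y))) - p j (τ j z)) ≤ f (z + r • (I ^ (k : ℕ) • Y)) := by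
    refine eventually_all.2 fun k => ?_
    have : Tendsto (fun r : ℝ => z + r • (I ^ (k : ℕ) • Y)) (𝓝 0) (𝓝 z) :=
      Continuous.tendsto' (by fun_prop) _ _ (by simp)
    exact (this.mono_left nhdsWithin_le_nhds).eventually h
  refine le_of_forall_pos_le_add fun η hη => ?_
  obtain ⟨r, ⟨g1, g2⟩, g3⟩ := ((((h2.sub h1).def hη).and h3).and self_mem_nhdsWithin).exists
  have hr : 0 < r ^ 2 := pow_pos g3 2
  have g4 := Finset.sum_le_sum fun k (_ : k ∈ Finset.univ) => g2 k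
  rw [Real.norm_eq_abs, Real.norm_of_nonneg hr.le] at g1
  have g5 := (abs_le.1 g1).2
  have e1 : ∑ j ∈ s, l j * (∑ k : Fin 4, p j (τ j (z + r • (I ^ (k : ℕ) • Y))) - 4 * p j (τ j z) -
      r ^ 2 * levi2 (p j) (τ j z) (fderiv ℝ (τ j) z Y)) =
      ∑ k : Fin 4, ∑ j ∈ s, l j * (p j (τ j (z + r • (I ^ (k : ℕ) • Y))) - p j (τ j z)) -
        r ^ 2 * ∑ j ∈ s, l j * levi2 (p j) (τ j z) (fderiv ℝ (τ j) z Y) := by
    rw [Finset.sum_comm, Finset.mul_sum, ← Finset.sum_sub_distrib]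
    refine Finset.sum_congr rfl fun j _ => ?_
    simp only [Fin.sum_univ_four]
    ring
  rw [Finset.sum_add_distrib, Finset.sum_const, Finset.card_univ, Fintype.card_fin] at g4
  simp only [id, ContinuousLinearMap.id_apply, Finset.sum_apply, e1, nsmul_eq_mul,
    Nat.cast_ofNat] at g4 g5
  refine le_of_mul_le_mul_left ?_ hr
  linarith

/-- smoothing of a continuous plurisubharmonic function -/
theorem smoothing {φ : Cm n → ℝ} {z₀ : Cm n} {r : ℝ} (hr : 0 < r)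
    (hc : ContinuousOn φ (ball z₀ (3 * r))) (h : P284Z.Psh φ (ball z₀ (3 * r))) {ε : ℝ}
    (hε : 0 < ε) : ∃ q : Cm n → ℝ, ContDiff ℝ ∞ q ∧ ∀ z ∈ ball z₀ r, |q z - φ z| ≤ ε ∧
      ∀ v, 0 ≤ levi2 q z v := by
  have hs : closedBall z₀ (2 * r) ⊆ ball z₀ (3 * r) := closedBall_subset_ball (by linarith)
  obtain ⟨δ, hδ, hu⟩ := Metric.uniformContinuousOn_iff_le.1
    ((isCompact_closedBall z₀ (2 * r)).uniformContinuousOn_of_continuous (hc.mono hs)) ε hε
  have hm : 0 < min δ r := lt_min hδ hr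
  have h2 : cthickening (min δ r) (closedBall z₀ r) ⊆ closedBall z₀ (2 * r) := by
    rw [cthickening_closedBall hm.le hr.le]
    exact closedBall_subset_closedBall (by linarith [min_le_right δ r])
  obtain ⟨q, q1, q2, q3⟩ := h.reg (.of_cont hc) isOpen_ball (isCompact_closedBall z₀ r) hm
    (h2.trans hs)
  refine ⟨q, q1, fun z hz => ⟨?_, fun v => q2.levi_nonneg
    (mem_of_superset (isOpen_ball.mem_nhds hz) ball_subset_closedBall)
    (q1.contDiffAt.of_le (by norm_cast)) v⟩⟩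
  have hz' := ball_subset_closedBall hz
  obtain ⟨a1, a2⟩ := q3 z hz'
  have a3 := a2 (φ z + ε) fun x hx => by
    have := hu x (h2 (closedBall_subset_cthickening hz' _ hx)) z
      (h2 (self_subset_cthickening _ hz')) ((mem_closedBall.1 hx).trans (min_le_left _ _))
    rw [Real.dist_eq] at this
    linarith [(abs_le.1 this).2]
  exact abs_le.2 ⟨by linarith, by linarith⟩

end Vale.Agent.P253Z.RB
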