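import Vale.Agent.P253Z.RB.Levi

/-!
# P253Z, block RB: the local pieces
-/

open scoped Manifold ContDiff Bundle Topology
open Bundle IsManifold Set Metric Filter Complex Vale.Agent.P253.Mfd
open Vale.Agent.P272.K (Cm Chart)
open Vale.Agent.P253.R2.H451 (WeakLevi levi2)

set_option maxSynthPendingDepth 3

noncomputable section

namespace Vale.Agent.P253Z.RB

variable {n : ℕ} {M : Type} [MetricSpace M] [ChartedSpace (Cm n) M]
  [IsManifold 𝓘(ℂ, Cm n) 1 M] [IsManifold 𝓘(ℝ, Cm n) ∞ M]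
  [RiemannianBundle (fun x : M => TangentSpace 𝓘(ℝ, Cm n) x)]
  [IsContMDiffRiemannianBundle 𝓘(ℝ, Cm n) ∞ (Cm n) (fun x : M => TangentSpace 𝓘(ℝ, Cm n) x)]
  {u c : M → ℝ} {e : Chart n M}

omit [IsManifold 𝓘(ℂ, Cm n) 1 M] [IsManifold 𝓘(ℝ, Cm n) ∞ M]
  [IsContMDiffRiemannianBundle 𝓘(ℝ, Cm n) ∞ (Cm n) (fun x : M => TangentSpace 𝓘(ℝ, Cm n) x)] in
/-- the weak bound for the Levi form in a chart -/
theorem psh_of_weak (hu : WeakLevi (Cm n) u c univ) (he : Hc e) {W : Set (Cm n)} (hW : IsOpen W)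
    (hWt : W ⊆ e.target) {N : Cm n → ℝ} (hN : ContDiff ℝ 2 N)
    (hl : ∀ z ∈ W, ∀ v, levi2 N z v ≤ 4 * c (e.symm z) * chartMetric e z v v) :
    ContinuousOn (fun z => u (e.symm z) - N z) W ∧ P284Z.Psh (fun z => u (e.symm z) - N z) W := by
  have hc : ContinuousOn (fun z => u (e.symm z) - N z) W :=
    (hu.1.comp_continuousOn (e.continuousOn_symm.mono hWt)).sub hN.continuous.continuousOn
  refine ⟨hc, hc.upperSemicontinuousOn, fun z w hw => ?_⟩
  have hm : ∀ ζ ∈ closedBall (0 : ℂ) 1, z + ζ • w ∈ W := fun ζ hζ =>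
    hw ζ (mem_closedBall_zero_iff.1 hζ)
  have hl' : Differentiable ℂ fun ζ : ℂ => z + ζ • w := by fun_prop
  have h := hu.2 e he W N hW hWt (fun _ _ => mem_univ _) hN.contDiffOn hl
    (fun ζ => e.symm (z + ζ • w)) 0 1 one_pos
    (e.continuousOn_symm.comp hl'.continuous.continuousOn fun ζ hζ => hWt (hm ζ hζ))
    (((contMDiffOn_symm_of_mem_maximalAtlas he).mdifferentiableOn one_ne_zero).comp
      hl'.mdifferentiable.mdifferentiableOn fun ζ hζ => hWt (hm ζ (ball_subset_closedBall hζ)))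
    (fun ζ hζ => ⟨e.map_target (hWt (hm ζ hζ)), by
      rw [e.right_inv (hWt (hm ζ hζ))]; exact hm ζ hζ⟩)
  have h0 : z ∈ e.target := by simpa using hWt (hm 0 (mem_closedBall_self zero_le_one))
  simp only [zero_smul, add_zero, e.right_inv h0] at h
  refine h.trans_eq (Real.circleAverage_congr_sphere fun ζ hζ => ?_)
  have h1 : ζ ∈ closedBall (0 : ℂ) 1 := by simpa using sphere_subset_closedBall hζ
  simp only [e.right_inv (hWt (hm ζ h1))]

/-- the form `c g` is almost constant near a point -/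
theorem almost_const (hK : IsKahler (Cm n) M) (hc : Continuous c) (hp : ∀ x, 0 < c x) (he : Hc e)
    {z₀ : Cm n} (hz₀ : z₀ ∈ e.target) : ∃ r > 0, ∃ m > 0, ball z₀ (3 * r) ⊆ e.target ∧
      ∀ z ∈ ball z₀ (3 * r), ∀ v, m * ‖v‖ ^ 2 ≤ c (e.symm z) * chartG e z v v ∧
        9 / 10 * (c (e.symm z₀) * chartG e z₀ v v) ≤ c (e.symm z) * chartG e z v v ∧
        c (e.symm z) * chartG e z v v ≤ 11 / 10 * (c (e.symm z₀) * chartG e z₀ v v) := by
  have hL := localKahler_chartG hK he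
  obtain ⟨m, hm, h1⟩ := hL.exists_lower isCompact_singleton (singleton_subset_iff.2 hz₀)
  have ht := e.open_target.mem_nhds hz₀
  have h2 : ContinuousAt (fun z => c (e.symm z) • chartG e z) z₀ :=
    (hc.continuousAt.comp (e.continuousAt_symm hz₀)).smul
      (hL.smooth.continuousOn.continuousAt ht)
  have hm' : 0 < c (e.symm z₀) * m := mul_pos (hp _) hm
  have h3 := (Metric.tendsto_nhds.1 h2 (c (e.symm z₀) * m / 10) (by positivity)).and ht
  obtain ⟨R, hR, h4⟩ := Metric.eventually_nhds_iff_ball.1 h3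
  have e1 : 3 * (R / 3) = R := by ring
  refine ⟨R / 3, by positivity, 9 / 10 * (c (e.symm z₀) * m), by positivity,
    fun z hz => (h4 z (e1 ▸ hz)).2, fun z hz v => ?_⟩
  have h5 := (h4 z (e1 ▸ hz)).1
  rw [dist_eq_norm] at h5
  have h6 := (c (e.symm z) • chartG e z - c (e.symm z₀) • chartG e z₀).le_opNorm₂ v v
  have h7 : ‖c (e.symm z) • chartG e z - c (e.symm z₀) • chartG e z₀‖ * ‖v‖ * ‖v‖ ≤
      c (e.symm z₀) * m / 10 * ‖v‖ ^ 2 := by
    rw [mul_assoc, ← sq]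
    exact mul_le_mul_of_nonneg_right h5.le (sq_nonneg _)
  have h8 := mul_le_mul_of_nonneg_left (h1 z₀ rfl v) (hp (e.symm z₀)).le
  simp only [sub_apply, smul_apply, smul_eq_mul, Real.norm_eq_abs] at h6
  obtain ⟨h9, h10⟩ := abs_le.1 (h6.trans h7)
  refine ⟨?_, ?_, ?_⟩ <;> nlinarith

theorem sm_quad (B : Cm n →L[ℝ] Cm n →L[ℝ] ℝ) (z₀ : Cm n) :
    ContDiff ℝ ∞ fun z => B (z - z₀) (z - z₀) :=
  B.isBoundedBilinearMap.contDiff.comp ((contDiff_id.sub contDiff_const).prodMk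
    (contDiff_id.sub contDiff_const))

theorem exists_eta {m C : ℝ} (hm : 0 < m) (hC : 0 ≤ C) :
    ∃ η : ℝ, 0 < η ∧ η ≤ 1 / 2 ∧ 4 * η * C ≤ m := by
  refine ⟨min (1 / 2) (m / (4 * (C + 1))), by positivity, min_le_left _ _, ?_⟩
  have := min_le_right (1 / 2) (m / (4 * (C + 1)))
  rw [le_div_iff₀ (by positivity)] at this
  have h0 : 0 < min (1 / 2) (m / (4 * (C + 1))) := by positivity
  nlinarith

theorem piece_aux {U N : Cm n → ℝ} {H : Cm n → Cm n → ℝ} {z₀ : Cm n} {r m : ℝ} (hr : 0 < r)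
    (hm : 0 < m) (hN : ContDiff ℝ ∞ N) (h2 : ContinuousOn (fun z => U z - N z) (ball z₀ (3 * r)))
    (h3 : P284Z.Psh (fun z => U z - N z) (ball z₀ (3 * r)))
    (h1 : ∀ z ∈ ball z₀ r, ∀ v, m * ‖v‖ ^ 2 ≤ H z v ∧ 3 * H z v ≤ levi2 N z v)
    {b : Cm n → ℝ} (hb : ContDiff ℝ ∞ b) (hb1 : ∀ z, b z ≤ 1) :
    ∃ δ > 0, ∃ p : Cm n → ℝ, ContDiff ℝ ∞ p ∧ ∀ z ∈ ball z₀ r,
      (∀ v, 2 * H z v ≤ levi2 p z v) ∧ p z ≤ U z + 1 ∧
      (b z = 0 → p z ≤ U z) ∧ (b z = 1 → U z + δ ≤ p z) := by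
  have hb2 : Continuous (fderiv ℝ (fderiv ℝ b)) :=
    (hb.fderiv_right (m := 1) (by norm_cast)).continuous_fderiv one_ne_zero
  obtain ⟨C, hC⟩ := (isCompact_closedBall z₀ r).exists_bound_of_continuousOn hb2.continuousOn
  obtain ⟨η, hη, hη1, hη2⟩ :=
    exists_eta hm ((norm_nonneg _).trans (hC z₀ (mem_closedBall_self hr.le)))
  obtain ⟨q, q1, q2⟩ := smoothing hr h2 h3 (half_pos hη)
  have hq : ContDiff ℝ ∞ fun z => q z + (1 * N z + 0) :=
    q1.add ((contDiff_const.mul hN).add contDiff_const)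
  refine ⟨η / 2, half_pos hη, fun z => q z + (1 * N z + 0) + (2 * η * b z + -η),
    hq.add ((contDiff_const.mul hb).add contDiff_const), fun z hz => ?_⟩
  obtain ⟨a1, a2⟩ := q2 z hz
  obtain ⟨a3, a4⟩ := abs_le.1 a1
  have a5 := mul_le_mul_of_nonneg_left (hb1 z) hη.le
  refine ⟨fun v => ?_, by linarith, fun h => by simp only [h]; linarith,
    fun h => by simp only [h]; linarith⟩
  rw [levi2_lin (hq.contDiffAt.of_le (by norm_cast)) (hb.contDiffAt.of_le (by norm_cast)),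
    levi2_lin (q1.contDiffAt.of_le (by norm_cast)) (hN.contDiffAt.of_le (by norm_cast))]
  obtain ⟨b1, b2⟩ := h1 z hz v
  have b4 := (abs_le.1 ((abs_levi2_le b z v).trans (mul_le_mul_of_nonneg_right
    (mul_le_mul_of_nonneg_left (hC z (ball_subset_closedBall hz)) zero_le_two) (sq_nonneg _)))).1
  have b5 := mul_le_mul_of_nonneg_left b4 hη.le
  have b6 := mul_le_mul_of_nonneg_right hη2 (sq_nonneg ‖v‖)
  linarith [a2 v]

/-- the local pieces -/
theorem piece (hK : IsKahler (Cm n) M) (hc : Continuous c) (hp : ∀ x, 0 < c x)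
    (hu : WeakLevi (Cm n) u c univ) (he : Hc e) {z₀ : Cm n} (hz₀ : z₀ ∈ e.target) :
    ∃ r > 0, ball z₀ r ⊆ e.target ∧ ∀ b : Cm n → ℝ, ContDiff ℝ ∞ b → (∀ z, b z ≤ 1) →
      ∃ δ > 0, ∃ p : Cm n → ℝ, ContDiff ℝ ∞ p ∧ ∀ z ∈ ball z₀ r,
        (∀ v, 2 * (c (e.symm z) * chartG e z v v) ≤ levi2 p z v) ∧ p z ≤ u (e.symm z) + 1 ∧
        (b z = 0 → p z ≤ u (e.symm z)) ∧ (b z = 1 → u (e.symm z) + δ ≤ p z) := by
  obtain ⟨r, hr, m, hm, ht, h1⟩ := almost_const hK hc hp he hz₀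
  have hL := localKahler_chartG hK he
  have hs : ball z₀ r ⊆ ball z₀ (3 * r) := ball_subset_ball (by linarith)
  obtain ⟨B, hB⟩ : ∃ B : Cm n →L[ℝ] Cm n →L[ℝ] ℝ,
      ∀ v w, B v w = 9 / 10 * (c (e.symm z₀) * chartG e z₀ v w) :=
    ⟨(9 / 10 * c (e.symm z₀)) • chartG e z₀, fun v w => mul_assoc _ _ _⟩
  have hlN : ∀ z v, levi2 (fun z => B (z - z₀) (z - z₀)) z v =
      4 * (9 / 10 * (c (e.symm z₀) * chartG e z₀ v v)) := fun z v => by
    rw [levi2_quad B (fun v w => by rw [hB, hB, hL.symm z₀ hz₀ v w])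
      (fun v => by rw [hB, hB, hL.herm z₀ hz₀ v v]), hB]
  obtain ⟨h2, h3⟩ := psh_of_weak hu he isOpen_ball ht ((sm_quad B z₀).of_le (by norm_cast))
    fun z hz v => by
      rw [hlN, ← chartG_apply]
      linarith [(h1 z hz v).2.1]
  refine ⟨r, hr, hs.trans ht, fun b hb hb1 => piece_aux (U := fun z => u (e.symm z))
    (H := fun z v => c (e.symm z) * chartG e z v v) hr hm (sm_quad B z₀) h2 h3
    (fun z hz v => ⟨(h1 z (hs hz) v).1, ?_⟩) hb hb1⟩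
  obtain ⟨b1, b2, b3⟩ := h1 z (hs hz) v
  have b7 := mul_nonneg hm.le (sq_nonneg ‖v‖)
  rw [hlN]
  linarith

end Vale.Agent.P253Z.RB
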